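import Crest.Agent.N255.Tg.Ph

/-!
# Row 255 (helper22): step 1, the own Tougeron absorption of a slot

The square of the curvature ideal of a slot is absorbed by a shift of the wall variables: the
detecting variables move monotonically, the multiplicative variables `y` move inside `(y) * L`.
-/

set_option autoImplicit false
open Set Function

noncomputable section

namespace Crest.Agent.N255.Sl

open _root_.N255.Dr _root_.N255.Dr.O Cs Tg

section EE

variable {A : Type*} [CommRing A] {σ : Type}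



theorem mul_EE {J J' : σ → Ideal A} {d : σ → A} {H H' M : Ideal A} (h : ∀ x, M * J x ≤ J' x)
    (hH : M * H ≤ H') : M * EE J d H ≤ EE J' d H' := by
  rw [EE, Ideal.mul_sup, Ideal.mul_iSup]
  refine sup_le (iSup_le fun x => ?_) (hH.trans (H_le_EE _ _ _))
  rw [← mul_assoc]
  exact (Ideal.mul_mono_left (h x)).trans (le_EE _ _ _ x)

theorem map_EE {B F : Type*} [CommRing B] [FunLike F A B] [RingHomClass F A B] (f : F)
    (J : σ → Ideal A) (d : σ → A) (H : Ideal A) :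
    (EE J d H).map f = EE (fun x => (J x).map f) (fun x => f (d x)) (H.map f) := by
  simp [EE, Ideal.map_sup, Ideal.map_iSup, Ideal.map_mul, Ideal.map_span]

theorem EE_bot (d : σ → A) (H : Ideal A) : EE (fun _ => ⊥) d H = H := by simp [EE]

/-- detection of the square: products of two generators, and the multiplicative directions -/
theorem det_Y {ι : Type*} {m L K H : Ideal A} {Ls Yx : σ → Ideal A} {d : σ → A} {κ : ι → A}
    {e : ι → σ} (hκ : ∀ a, κ a ∈ L) (w1 : L ≤ sp κ ⊔ EE Yx d K)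
    (w2 : ∀ a, κ a - d (e a) ∈ m * L ⊔ EE Yx d K) (hK : L * K ≤ H)
    (hp : ∀ a a', κ a' ∈ Ls (e a) ∨ κ a ∈ Ls (e a') ∨ κ a * κ a' ∈ H) :
    L * L ≤ EE (fun x => Ls x ⊔ L * Yx x) d H ⊔ m * (L * L) := by
  have hE : L * EE Yx d K ≤ EE (fun x => Ls x ⊔ L * Yx x) d H := mul_EE (fun _ => le_sup_right) hK
  have key : ∀ a x, x ∈ L → x ∈ Ls (e a) →
      x * κ a ∈ EE (fun x => Ls x ⊔ L * Yx x) d H ⊔ m * (L * L) := by
    intro a x hx hx'
    obtain ⟨u, hu, v, hv, h⟩ := Submodule.mem_sup.1 (w2 a)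
    have : x * κ a = x * d (e a) + x * v + u * x := by linear_combination (-x) * h
    rw [this]
    refine add_mem (Ideal.mem_sup_left (add_mem (mul_mem_EE d H (Ideal.mem_sup_left hx'))
      (hE (Ideal.mul_mem_mul hx hv)))) (Ideal.mem_sup_right ?_)
    rw [← mul_assoc]; exact Ideal.mul_mem_mul hu hx
  have h1 : sp κ * sp κ ≤ EE (fun x => Ls x ⊔ L * Yx x) d H ⊔ m * (L * L) := by
    rw [sp, Ideal.span_mul_span', Ideal.span_le]
    rintro _ ⟨_, ⟨a, rfl⟩, _, ⟨a', rfl⟩, rfl⟩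
    rcases hp a a' with h | h | h
    · have := key a _ (hκ a') h
      rwa [mul_comm (κ a')] at this
    · exact key a' _ (hκ a) h
    · exact Ideal.mem_sup_left (H_le_EE _ _ _ h)
  have h2 : L * sp κ ≤ EE (fun x => Ls x ⊔ L * Yx x) d H ⊔ m * (L * L) := by
    rw [mul_comm L (sp κ)]
    refine (Ideal.mul_mono_right w1).trans ?_
    rw [Ideal.mul_sup]
    exact sup_le h1 (le_sup_of_le_left ((Ideal.mul_mono_left (sp_le.2 hκ)).trans hE))
  refine (Ideal.mul_mono_right w1).trans ?_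
  rw [Ideal.mul_sup]
  exact sup_le h2 (le_sup_of_le_left hE)

end EE

variable {p : ℕ} {K : Type} [CommRing K] {σ : Type} [Fintype σ] {A : Type*} [CommRing A]
  [Algebra K A] [Fact p.Prime] [Fact ((p : K) = 0)] {m : Ideal A}

/-- **Tougeron for a square**, the shift of `x` is taken in `Ls x` -/
theorem toug_LL (hm : IsNilpotent m) (hp : ∀ x ∈ m, x ^ p = 0) {W : O p K σ}
    {φ : O p K σ →ₐ[K] A} (hφ : ∀ u, φ (z u) ∈ m) {L H : Ideal A} {Ls : σ → Ideal A}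
    (hLm : L ≤ m) (hLs : ∀ x, Ls x ≤ L)
    (hD : L * L ≤ EE Ls (fun x => φ (pd x W)) H ⊔ m * (L * L))
    (hH : ∀ x y, pd x (pd y W) ∈ (mx : Ideal (O p K σ)) ∨ Ls x ≤ m * L ∨ Ls y ≤ m * L)
    {P : A} (hP : P ∈ L ^ 2 ⊔ H) :
    ∃ ψ : O p K σ →ₐ[K] A, (∀ u, ψ (z u) - φ (z u) ∈ Ls u) ∧ ψ W - φ W - P ∈ H := by
  have hD' := nak hm hD
  obtain ⟨N, hN⟩ := id hm
  obtain ⟨ψ, h1, h2⟩ := toug_w (GO := triv K (O p K σ)) (G := triv K A) (d := fun _ => ())
    (D := ()) (W := W) (I := fun _ => m) (J := fun k x => m ^ k * Ls x) (H := H) (φ := φ) (P := P)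
    (fun _ => rfl) rfl (fun _ => hp) (fun _ _ => triv_id _) (triv_id _)
    (fun k x => by rw [pow_zero, one_mul]; exact Ideal.mul_le_right)
    (fun x => by simpa using (hLs x).trans hLm) (fun u => ⟨rfl, hφ u⟩)
    (fun k x y => by
      refine le_trans ?_ ((Ideal.mul_mono_right hD').trans
        (mul_EE (M := m ^ (k + 1)) (fun _ => le_rfl) Ideal.mul_le_right))
      rw [pow_zero, one_mul, pow_succ]
      rcases hH x y with h | h | h
      · refine (Ideal.mul_mono (Ideal.mul_mono (Ideal.mul_mono_right (hLs x)) (hLs y))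
          (Car_mx (fun _ => le_rfl) h)).trans (le_of_eq ?_)
        ring
      · refine Ideal.mul_le_left.trans ((Ideal.mul_mono (Ideal.mul_mono_right h) (hLs y)).trans
          (le_of_eq ?_))
        ring
      · refine Ideal.mul_le_left.trans ((Ideal.mul_mono (Ideal.mul_mono_right (hLs x)) h).trans
          (le_of_eq ?_))
        ring)
    rfl (by
      simp only [pow_zero, one_mul]
      exact (sup_le (sq L ▸ hD') (H_le_EE _ _ _) : _ ≤ EE Ls _ H) hP) N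
  refine ⟨ψ, fun u => by simpa using (h1 u).2, ?_⟩
  simpa [hN, EE_bot] using h2

/-- **Step 1, abstract form**: detecting generators `κ a` for the directions `e a`, multiplicative
directions `x` (coefficients in `Yx x`), errors `Kk` -/
theorem toug_Y (hm : IsNilpotent m) (hp : ∀ x ∈ m, x ^ p = 0) {W : O p K σ}
    {φ : O p K σ →ₐ[K] A} (hφ : ∀ u, φ (z u) ∈ m) {L Kk H : Ideal A} {Ls Yx : σ → Ideal A}
    (hLm : L ≤ m) (hLs : ∀ x, Ls x ≤ L) (hY : ∀ x, Yx x ≤ m) {ι : Type*} {κ : ι → A} {e : ι → σ}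
    (hκ : ∀ a, κ a ∈ L) (w1 : L ≤ sp κ ⊔ EE Yx (fun x => φ (pd x W)) Kk)
    (w2 : ∀ a, κ a - φ (pd (e a) W) ∈ m * L ⊔ EE Yx (fun x => φ (pd x W)) Kk) (hK : L * Kk ≤ H)
    (hq : ∀ a a', κ a' ∈ Ls (e a) ∨ κ a ∈ Ls (e a') ∨ κ a * κ a' ∈ H)
    (hH : ∀ x y, pd x (pd y W) ∈ (mx : Ideal (O p K σ)) ∨ Ls x ≤ m * L ∨ Ls y ≤ m * L)
    {P : A} (hP : P ∈ L ^ 2 ⊔ H) :
    ∃ ψ : O p K σ →ₐ[K] A, (∀ u, ψ (z u) - φ (z u) ∈ Ls u ⊔ L * Yx u) ∧ ψ W - φ W - P ∈ H := by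
  have h1 : ∀ x, L * Yx x ≤ m * L := fun x => by rw [mul_comm]; exact Ideal.mul_mono_left (hY x)
  have hD := det_Y hκ w1 w2 hK hq
  exact toug_LL (Ls := fun x => Ls x ⊔ L * Yx x) hm hp hφ hLm
    (fun x => sup_le (hLs x) Ideal.mul_le_left) hD
    (fun x y => (hH x y).imp_right fun h => h.imp (sup_le · (h1 x)) (sup_le · (h1 y))) hP

/-- **Step 1 with weights** (everything in the target ring): the detecting variables move
monotonically, the other variables move only inside `L * Yx u` -/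
theorem step1A (hm : IsNilpotent m) (hp : ∀ x ∈ m, x ^ p = 0) {W : O p K σ}
    {φ : O p K σ →ₐ[K] A} (hφ : ∀ u, φ (z u) ∈ m) {L Kk H : Ideal A} {Yx : σ → Ideal A}
    (hLm : L ≤ m) (hY : ∀ x, Yx x ≤ m) {ι : Type*} {κ : ι → A} {e : ι → σ} {Fl : ℤ → Ideal A}
    (fl : Antitone Fl) (F : σ → ℤ) (hκ : ∀ a, κ a ∈ L ∧ κ a ∈ Fl (F (e a)))
    (w1 : L ≤ sp κ ⊔ EE Yx (fun x => φ (pd x W)) Kk)
    (w2 : ∀ a, κ a - φ (pd (e a) W) ∈ m * L ⊔ EE Yx (fun x => φ (pd x W)) Kk) (hK : L * Kk ≤ H)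
    (hH : ∀ a b, pd (e a) (pd (e b) W) ∈ (mx : Ideal (O p K σ))) {P : A} (hP : P ∈ L ^ 2 ⊔ H) :
    ∃ ψ : O p K σ →ₐ[K] A, (∀ u, ψ (z u) - φ (z u) ∈ (L ⊓ Fl (F u)) ⊔ L * Yx u) ∧
      (∀ u, u ∉ range e → ψ (z u) - φ (z u) ∈ L * Yx u) ∧ ψ W - φ W - P ∈ H := by
  classical
  obtain ⟨ψ, h1, h2⟩ := toug_Y hm hp hφ (Ls := fun u => if u ∈ range e then L ⊓ Fl (F u) else ⊥)
    hLm (fun x => by split_ifs; exacts [inf_le_left, bot_le]) hY (fun a => (hκ a).1) w1 w2 hK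
    (fun a a' => by
      simp only [mem_range_self, if_true]
      rcases le_total (F (e a)) (F (e a')) with h | h
      · exact Or.inl ⟨(hκ a').1, fl h (hκ a').2⟩
      · exact Or.inr (Or.inl ⟨(hκ a).1, fl h (hκ a).2⟩))
    (fun x y => by
      by_cases hx : x ∈ range e
      · by_cases hy : y ∈ range e
        · obtain ⟨a, rfl⟩ := hx
          obtain ⟨b, rfl⟩ := hy
          exact Or.inl (hH a b)
        · simp [hy]
      · simp [hx]) hP
  refine ⟨ψ, fun u => ?_, fun u hu => ?_, h2⟩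
  · have := h1 u
    split_ifs at this
    exacts [this, Ideal.mem_sup_right (by simpa using this)]
  · have := h1 u
    rwa [if_neg hu, bot_sup_eq] at this

/-- **Step 1**: wall facts `W1`, `W2` on the wall ring, pushed along a monotone substitution -/
theorem step1 (hm : IsNilpotent m) (hp : ∀ x ∈ m, x ^ p = 0) {W : O p K σ}
    {φ : O p K σ →ₐ[K] A} (hφ : ∀ u, φ (z u) ∈ m) {I KU : Ideal (O p K σ)}
    {YU : σ → Ideal (O p K σ)} (hI : I ≤ mx) (hY : ∀ x, YU x ≤ mx) {ι : Type*}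
    {κ : ι → O p K σ} {e : ι → σ} {Fl : ℤ → Ideal A} (fl : Flt Fl) {F : σ → ℕ}
    (hF : ∀ u, φ (z u) ∈ Fl (F u)) (c : ℤ) (hκ : ∀ a, κ a ∈ I ∧ κ a ∈ Ge p K F (F (e a) + c))
    (w1 : I ≤ sp κ ⊔ EE YU (fun x => pd x W) KU)
    (w2 : ∀ a, κ a - pd (e a) W ∈ mx * I ⊔ EE YU (fun x => pd x W) KU) {H : Ideal A}
    (hK : I.map φ * KU.map φ ≤ H) (hH : ∀ a b, pd (e a) (pd (e b) W) ∈ (mx : Ideal (O p K σ)))
    {P : A} (hP : P ∈ I.map φ ^ 2 ⊔ H) :
    ∃ ψ : O p K σ →ₐ[K] A,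
      (∀ u, ψ (z u) - φ (z u) ∈ (I.map φ ⊓ Fl (F u + c)) ⊔ I.map φ * (YU u).map φ) ∧
      (∀ u, u ∉ range e → ψ (z u) - φ (z u) ∈ I.map φ * (YU u).map φ) ∧ ψ W - φ W - P ∈ H := by
  have hmx : (mx : Ideal (O p K σ)).map φ ≤ m := Ideal.map_le_iff_le_comap.2 fun g hg =>
    map_mx φ hφ hg
  refine step1A hm hp hφ (κ := fun a => φ (κ a)) (Kk := KU.map φ) ((Ideal.map_mono hI).trans hmx)
    (fun x => (Ideal.map_mono (hY x)).trans hmx) fl.anti (fun u => F u + c)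
    (fun a => ⟨Ideal.mem_map_of_mem _ (hκ a).1, map_Ge fl hF (hκ a).2⟩) ?_ (fun a => ?_) hK hH hP
  · refine (Ideal.map_mono w1).trans ?_
    rw [Ideal.map_sup, map_EE]
    exact sup_le_sup_right (Ideal.map_le_iff_le_comap.2 (sp_le.2 fun a => mem_sp (fun a => φ (κ a)) a)) _
  · have := Ideal.mem_map_of_mem φ (w2 a)
    rw [Ideal.map_sup, map_EE, Ideal.map_mul, map_sub] at this
    exact SetLike.le_def.1 (sup_le_sup_right (Ideal.mul_mono_left hmx) _) this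

/-- elements of `L * (y_1, …, y_n)` -/
theorem mem_mul_map_sp {ι : Type*} [Fintype ι] {B : Type*} [CommRing B] [Algebra K B]
    (φ : B →ₐ[K] A) (y : ι → B) {L : Ideal A} {x : A} (h : x ∈ L * (sp y).map φ) :
    ∃ c : ι → A, (∀ i, c i ∈ L) ∧ x = ∑ i, c i * φ (y i) := by
  have : (sp y).map φ = sp fun i => φ (y i) := by
    rw [sp, sp, Ideal.map_span, ← range_comp]; rfl
  exact mem_mul_sp.1 (this ▸ h)

end Crest.Agent.N255.Sl

end
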